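import Vale.Agent.Lib.P154Neg.C3.Data

namespace Vale.Agent.Lib.P154Neg.C3

open Vale.Agent.Lib.P154 Vale.Agent.Lib.P154Anti Vale.Agent.Lib.P154GW Vale.Agent.Lib.P154K Tp
open Vale.Agent.Lib.P154Neg

/-- A bound of this leaf. -/
def l5_v0 : VEnt :=
  ⟨⟨[(0, 2473306009184), (1, -14842052725739), (2, 37307068747001), (3, -50229121692848), (4, 38175023081360), (5, -15519387647901), (6, 2635231337807)], 12288, 16385, 16384, none⟩, 16384, 16, 1⟩

/-- A bound of this leaf. -/
def l5_v1 : VEnt :=
  ⟨⟨[(0, 863091742554), (1, -4752903826417), (2, 10977866386317), (3, -13598639978248), (4, 9520510711226), (5, -3569457505527), (6, 559599578959)], 15018, 17579, 16384, none⟩, 16384, 4, 4⟩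

/-- A bound of this leaf. -/
def l5_v2 : VEnt :=
  ⟨⟨[(0, 339358568423), (1, -1708280823492), (2, 3603514067833), (3, -4073009535431), (4, 2599500799086), (5, -887635705601), (6, 126619738046)], 16383, 20480, 16384, none⟩, 16384, 1, 4⟩

/-- A bound of this leaf. -/
def l5_v3 : VEnt :=
  ⟨⟨[(0, 2473306009184), (1, -14842052725739), (2, 37307068747001), (3, -50229121692848), (4, 38175023081360), (5, -15519387647901), (6, 2635231337807)], 12288, 16385, 16384, none⟩, 16384, 16, 1⟩

/-- A bound of this leaf. -/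
def l5_v4 : VEnt :=
  ⟨⟨[(0, 339358568423), (1, -1708280823492), (2, 3603514067833), (3, -4073009535431), (4, 2599500799086), (5, -887635705601), (6, 126619738046)], 16383, 20480, 16384, none⟩, 16384, 1, 4⟩

/-- A bound of this leaf. -/
def l5_v5 : VEnt :=
  ⟨⟨[(0, 979350185956), (1, -5459079891024), (2, 12764565842812), (3, -16008834528527), (4, 11348781613761), (5, -4308883823117), (6, 684167709003)], 15018, 17067, 16384, none⟩, 16384, 4, 4⟩

theorem leaf5 : leafV 351 373 (Trg.right (chamber 1 1)) (Trg.left (Trg.left (Trg.left (Trg.left (chamberN 1 3))))) Lq 12 6 67108864 Rq l5_v0 l5_v1 l5_v2 l5_v3 l5_v4 l5_v5 = true := by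
  decide +kernel

end Vale.Agent.Lib.P154Neg.C3
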