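import Vale.Agent.Lib.P154Neg.C3.Data
import Vale.Agent.Lib.P154Neg.C3.L0
import Vale.Agent.Lib.P154Neg.C3.L1
import Vale.Agent.Lib.P154Neg.C3.L2
import Vale.Agent.Lib.P154Neg.C3.L3
import Vale.Agent.Lib.P154Neg.C3.L4
import Vale.Agent.Lib.P154Neg.C3.L5
import Vale.Agent.Lib.P154Neg.C3.L6
import Vale.Agent.Lib.P154Neg.C3.L7
import Vale.Agent.Lib.P154Neg.C3.L8
import Vale.Agent.Lib.P154Neg.C3.L9
import Vale.Agent.Lib.P154Neg.C3.L10
import Vale.Agent.Lib.P154Neg.C3.L11
import Vale.Agent.Lib.P154Neg.C3.L12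
import Vale.Agent.Lib.P154Neg.C3.L13
import Vale.Agent.Lib.P154Neg.C3.L14
import Vale.Agent.Lib.P154Neg.C3.L15
import Vale.Agent.Lib.P154Neg.C3.L16
import Vale.Agent.Lib.P154Neg.C3.L17
import Vale.Agent.Lib.P154Neg.C3.L18
import Vale.Agent.Lib.P154Neg.C3.L19
import Vale.Agent.Lib.P154Neg.C3.L20
import Vale.Agent.Lib.P154Neg.C3.L21
import Vale.Agent.Lib.P154Neg.C3.L22
import Vale.Agent.Lib.P154Neg.C3.L23
import Vale.Agent.Lib.P154Neg.C3.L24
import Vale.Agent.Lib.P154Neg.C3.L25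
import Vale.Agent.Lib.P154Neg.C3.L26
import Vale.Agent.Lib.P154Neg.C3.L27
import Vale.Agent.Lib.P154Neg.C3.L28
import Vale.Agent.Lib.P154Neg.C3.L29
import Vale.Agent.Lib.P154Neg.C3.L30
import Vale.Agent.Lib.P154Neg.C3.L31
import Vale.Agent.Lib.P154Neg.C3.L32
import Vale.Agent.Lib.P154Neg.C3.L33
import Vale.Agent.Lib.P154Neg.C3.L34
import Vale.Agent.Lib.P154Neg.C3.L35
import Vale.Agent.Lib.P154Neg.C3.L36
import Vale.Agent.Lib.P154Neg.C3.L37
import Vale.Agent.Lib.P154Neg.C3.L38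
import Vale.Agent.Lib.P154Neg.C3.L39
import Vale.Agent.Lib.P154Neg.C3.L40
import Vale.Agent.Lib.P154Neg.C3.L41
import Vale.Agent.Lib.P154Neg.C3.L42
import Vale.Agent.Lib.P154Neg.C3.L43
import Vale.Agent.Lib.P154Neg.C3.L44
import Vale.Agent.Lib.P154Neg.C3.L45
import Vale.Agent.Lib.P154Neg.C3.L46
import Vale.Agent.Lib.P154Neg.C3.L47
import Vale.Agent.Lib.P154Neg.C3.L48

open Filter Topology

namespace Vale.Agent.Lib.P154Neg.C3

open Vale.Agent.Lib.P154 Vale.Agent.Lib.P154Anti Vale.Agent.Lib.P154GW Vale.Agent.Lib.P154K Tp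
open Vale.Agent.Lib.P154Neg

lemma hLne : Lq ≠ [] := by simp [Lq]
lemma hRne : Rq ≠ [] := by simp [Rq]
lemma hLb : ∀ t ∈ Lq, 2 * t.1 + 3 * t.2.1 ≤ 12 - 1 + 1 := by decide +kernel
lemma hLn : ∀ t ∈ Lq, 2 * t.1 + 3 * t.2.1 ≤ 12 := by decide +kernel
lemma hLm : ∀ t ∈ Lq, 2 * t.1 + 3 * t.2.1 - 2 ≤ 10 := by decide +kernel
lemma hL2 : ∀ t ∈ Lq, 2 ≤ 2 * t.1 + 3 * t.2.1 := by decide +kernel
lemma hLr3 : ∀ t ∈ Lr, 3 ≤ 2 * t.1 + 3 * t.2.1 := by decide +kernel
lemma hRb : ∀ t ∈ Rq, 2 * t.1 + 3 * t.2.1 ≤ 12 + 6 ∧ 2 * t.2.2.1 + 3 * t.2.2.2.1 ≤ 12 + 6 := by decide +kernel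

/-- The tree for the ray inequality. -/
def rt : TTree := (.node (.node (.node (.leaf 128) (.leaf 126)) (.leaf 117)) (.node (.node (.leaf 132) (.leaf 134)) (.node (.leaf 127) (.leaf 129))))

theorem rayC : TTree.okR Lq 12 10 rt (chamber 1 1) = true := by decide +kernel

lemma hRay : RayNN Lq (chamber 1 1) := rayNN_of_tree hLne hLn hLm rt _ (by decide) rayC

lemma hge (c : Tp) (hc : InSx 1 c) : p2T c ≤ (1 / ((67108864 : ℤ) : ℝ)) * potL Lq c :=
  hge_of_ray (U := 67108864) (L' := Lr) (by norm_num) hLr3 hRay c hc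

lemma hnn (c : Tp) (hc : InSx 1 c) : 0 ≤ potL Lq c := by
  have h1 := hge c hc
  have h2 := p2T_nonneg c
  have e : (0 : ℝ) < ((67108864 : ℤ) : ℝ) := by norm_num
  rw [div_mul_eq_mul_div, one_mul, le_div_iff₀ e] at h1
  nlinarith

lemma leafH {W W3 : ℕ} {Ta Tb : Trg} {V0 V1 V2 V3 V4 V5 : VEnt}
    (h : leafV W W3 Ta Tb Lq 12 6 67108864 Rq V0 V1 V2 V3 V4 V5 = true)
    (hDa : 0 < Ta.den) (hDb : 0 < Tb.den) : Holds6 Lq Rq Ta Tb :=
  holds6_of_leafV h hLne hRne (by norm_num) (by norm_num) hLb hRb hnn hDa hDb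

theorem hHq : Holds6 Lq Rq (chamber 1 1) (chamberN 1 3) :=
  (Holds6.splitA (by decide) (Holds6.splitB (by decide) (Holds6.splitB (by decide) (Holds6.splitB (by decide) (Holds6.splitA (by decide) (leafH leaf17 (by decide) (by decide)) (leafH leaf18 (by decide) (by decide))) (leafH leaf41 (by decide) (by decide))) (leafH leaf34 (by decide) (by decide))) (Holds6.splitA (by decide) (Holds6.splitB (by decide) (Holds6.splitB (by decide) (leafH leaf37 (by decide) (by decide)) (Holds6.splitB (by decide) (leafH leaf23 (by decide) (by decide)) (leafH leaf24 (by decide) (by decide)))) (Holds6.splitB (by decide) (Holds6.splitB (by decide) (Holds6.splitA (by decide) (leafH leaf27 (by decide) (by decide)) (leafH leaf28 (by decide) (by decide))) (leafH leaf21 (by decide) (by decide))) (Holds6.splitB (by decide) (leafH leaf44 (by decide) (by decide)) (leafH leaf22 (by decide) (by decide))))) (Holds6.splitB (by decide) (Holds6.splitA (by decide) (leafH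 leaf45 (by decide) (by decide)) (Holds6.splitA (by decide) (leafH leaf3 (by decide) (by decide)) (leafH leaf4 (by decide) (by decide)))) (Holds6.splitB (by decide) (Holds6.splitB (by decide) (Holds6.splitA (by decide) (Holds6.splitA (by decide) (leafH leaf38 (by decide) (by decide)) (leafH leaf47 (by decide) (by decide))) (Holds6.splitA (by decide) (leafH leaf42 (by decide) (by decide)) (leafH leaf43 (by decide) (by decide)))) (leafH leaf46 (by decide) (by decide))) (Holds6.splitA (by decide) (Holds6.splitA (by decide) (Holds6.splitB (by decide) (leafH leaf36 (by decide) (by decide)) (leafH leaf8 (by decide) (by decide))) (leafH leaf35 (by decide) (by decide))) (Holds6.splitB (by decide) (leafH leaf40 (by decide) (by decide)) (leafH leaf39 (by decide) (by decide)))))))) (Holds6.splitB (by decide) (Holds6.splitB (by decide) (Holds6.splitB (by decide) (Holds6.splitB (by decide) (leafH leaf5 (by decide) (by decide)) (Holds6.splitA (by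 decide) (leafH leaf10 (by decide) (by decide)) (leafH leaf11 (by decide) (by decide)))) (leafH leaf2 (by decide) (by decide))) (Holds6.splitB (by decide) (leafH leaf6 (by decide) (by decide)) (Holds6.splitB (by decide) (Holds6.splitA (by decide) (leafH leaf12 (by decide) (by decide)) (leafH leaf13 (by decide) (by decide))) (leafH leaf7 (by decide) (by decide))))) (Holds6.splitB (by decide) (Holds6.splitA (by decide) (Holds6.splitA (by decide) (Holds6.splitA (by decide) (leafH leaf19 (by decide) (by decide)) (Holds6.splitA (by decide) (leafH leaf20 (by decide) (by decide)) (Holds6.splitA (by decide) (Holds6.splitA (by decide) (leafH leaf29 (by decide) (by decide)) (leafH leaf48 (by decide) (by decide))) (leafH leaf30 (by decide) (by decide))))) (Holds6.splitA (by decide) (Holds6.splitB (by decide) (leafH leaf33 (by decide) (by decide)) (Holds6.splitB (by decide) (leafH leaf31 (by decide) (by decide)) (leafH leaf32 (by decide) (by decide))))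 (leafH leaf1 (by decide) (by decide)))) (leafH leaf0 (by decide) (by decide))) (Holds6.splitB (by decide) (Holds6.splitB (by decide) (Holds6.splitA (by decide) (leafH leaf15 (by decide) (by decide)) (leafH leaf16 (by decide) (by decide))) (leafH leaf14 (by decide) (by decide))) (Holds6.splitA (by decide) (Holds6.splitA (by decide) (leafH leaf25 (by decide) (by decide)) (leafH leaf26 (by decide) (by decide))) (leafH leaf9 (by decide) (by decide)))))))

lemma hzero : potL Lq ⟨0, 0, 0⟩ = 0 := by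
  simp [potL, Lq, Lr, p2T, p3T]

lemma hrhs (a c : Tp) : rhsL Rq a (sc ((1 : ℕ) / (3 : ℕ) : ℝ) c) =
    potL Lq a + ((1 : ℕ) / (3 : ℕ) : ℝ) ^ 2 * potL Lq c -
      (1248538723 : ℝ) * p2T (sc ((1 : ℕ) / (3 : ℕ) : ℝ) c) ^ 3 +
      (52022446822 : ℝ) * (p2T a * p2T (sc ((1 : ℕ) / (3 : ℕ) : ℝ) c) ^ 3) -
      (67108 : ℝ) * (p2T a * p2T (sc ((1 : ℕ) / (3 : ℕ) : ℝ) c)) := by
  simp only [rhsL, potL, Rq, Lq, Lr, List.map_cons, List.map_nil, List.sum_cons, List.sum_nil, sc,
    p2T_scale', p3T_scale']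
  norm_num
  ring

lemma hmerge (a c : Tp) (ha : InSx 1 a) (hc : InSx 1 c) :
    KT (potL Lq) a (sc ((1 : ℕ) / (3 : ℕ) : ℝ) c) ≤
      potL Lq a + ((1 : ℕ) / (3 : ℕ) : ℝ) ^ 2 * potL Lq c -
      (1248538723 : ℝ) * p2T (sc ((1 : ℕ) / (3 : ℕ) : ℝ) c) ^ 3 +
      (52022446822 : ℝ) * (p2T a * p2T (sc ((1 : ℕ) / (3 : ℕ) : ℝ) c) ^ 3) -
      (67108 : ℝ) * (p2T a * p2T (sc ((1 : ℕ) / (3 : ℕ) : ℝ) c)) := by
  have h := avg6_le_of_holds6 (p := 1) (q := 3) (by norm_num) (by norm_num) hHq a c ha hc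
  rw [hrhs] at h
  exact h

/-- The terms of the right side for the second moment. -/
def R2 : List (ℕ × ℕ × ℕ × ℕ × ℤ) := [(1, 0, 0, 0, 100), (0, 0, 1, 0, 116), (0, 0, 2, 0, 500)]

/-- The polynomial bound for the second moment. -/
def Q2 : QEnt := ⟨[(0, 7), (1, -18), (2, 22), (3, -13), (4, 3)], 1, 4, 3, none⟩

/-- The tree for the second moment. -/
def pt : PTree := (.a (.b (.leaf 87) (.a (.leaf 93) (.b (.leaf 101) (.leaf 100)))) (.leaf 83))

theorem ptC : PTree.ok [(1, 0, 100)] 2 4 1 R2 Q2 pt (chamber 1 1) (chamberN 1 3) = true := by decide +kernel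

theorem q2C0 : qGrid 20 Q2.Q 2 4 1 Q2.lo Q2.e Q2.e 1 = true := by decide +kernel
theorem q2C1 : qGrid 22 Q2.Q 2 4 1 Q2.e Q2.hi Q2.e 1 = true := by decide +kernel

lemma hE2 : ValidE [(1, 0, 100)] 2 4 1 Q2 :=
  validE_of_grids rfl (by norm_num) (by norm_num) (by simp [Q2]) (by decide +kernel) (by decide) (by decide) (by decide)
    (by decide) q2C0 q2C1

lemma hH2 : Holds6 [(1, 0, 100)] R2 (chamber 1 1) (chamberN 1 3) :=
  holds6_of_tree (by simp) (by simp [R2]) (by norm_num) (by norm_num) (by decide +kernel) (by decide +kernel)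
    (fun c _ => by
      have h := p2T_nonneg c
      simp only [potL, List.map_cons, List.map_nil, List.sum_cons, List.sum_nil, pow_zero, pow_one, mul_one, add_zero]
      push_cast
      linarith) hE2 pt _ _
    (by decide) (by decide) ptC

lemma hP (a c : Tp) (ha : InSx 1 a) (hc : InSx 1 c) :
    KT p2T a (sc ((1 : ℕ) / (3 : ℕ) : ℝ) c) ≤
      p2T a + (1 + 16 / 100) * p2T (sc ((1 : ℕ) / (3 : ℕ) : ℝ) c) +
        5 * p2T (sc ((1 : ℕ) / (3 : ℕ) : ℝ) c) ^ 2 := by
  refine hP_of_holds6 (U := 100) (R := R2) (p := 1) (q := 3) (by norm_num) (by norm_num) (by norm_num) hH2 ?_ a c ha hc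
  intro a b
  simp only [rhsL, R2, List.map_cons, List.map_nil, List.sum_cons, List.sum_nil]
  norm_num
  ring

/-- **The near phase of this class.** -/
theorem main {k : ℕ} {lam y₀ m₀ : ℝ} {N : ℕ} (hl0 : -((1 : ℕ) / (3 : ℕ) : ℝ) ≤ lam) (hl1 : lam < 0)
    (hd : ((k : ℝ) + 2) * lam ^ 2 ≤ 1)
    (hfar : ∀ n, N ≤ n → PhiN k lam p2T n ≤ y₀ ∧ PhiN k lam (fun c => p2T c ^ 2) n ≤ m₀)
    (hy : 0 ≤ y₀) (hm : 0 ≤ m₀)
    (hnum : (52022446822 : ℝ) * (((k : ℝ) + 1) * ((1 + 16 / 100) * (y₀ / ((k : ℝ) + 2)) +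
      5 * (m₀ / ((k : ℝ) + 2) ^ 2))) ≤ 2 * 1248538723) :
    Tendsto (reconDist 3 (k + 2) lam) atTop (𝓝 0) := by
  refine tendsto_stat (L := Lq) (s := ((1 : ℕ) / (3 : ℕ) : ℝ)) (β := 1248538723) (C := 52022446822) (t := 67108)
    (δ := 16 / 100) (M := 5) (K₀ := 1 / ((67108864 : ℤ) : ℝ)) (N := N) (y₀ := y₀) (m₀ := m₀)
    (by norm_num) (by norm_num) hl0 hl1 hd (by norm_num) (by norm_num) (by norm_num) (by norm_num) (by norm_num)
    hzero hmerge ?_ hP hge hfar ?_
  · intro c hc μ h0 h1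
    exact ray_of_rayNN hL2 hRay c hc μ h0 h1
  · exact budget_of_num (by norm_num) (by norm_num) (by norm_num) hy hm hd hnum

end Vale.Agent.Lib.P154Neg.C3
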